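import Vale.Agent.P146F.Var.Inputs
import Vale.Agent.P146F.Goe.Pressure

/-!
P146: the fluctuations of the free energy diverge at and below the critical temperature.
-/

namespace Vale.Agent.P146F

open MeasureTheory ProbabilityTheory Filter
open Vale.Agent.P146 (Edge F M)
open Vale.Agent.P150 (gauss)

theorem pressureLimit {β : ℝ} (hβ : 1 ≤ β) : PressureLimit β := fun P =>
  pressure_L1 P (lt_of_lt_of_le one_pos hβ)

/-- Vanishing mass in every window and diverging variance. -/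
theorem fluctuations_diverge :
    (∀ L : ℝ, ∀ ε > 0, ∃ δ > 0, ∀ᶠ n : ℕ in atTop,
      (∀ β : ℝ, 1 - δ ≤ β → ∀ c : ℝ, (gauss (Edge n)).real {g | |F β g - c| ≤ β * L} ≤ ε) ∧
      ∀ c : ℝ, (gauss (Edge n)).real {g | |M g - c| ≤ L} ≤ ε) ∧
    ∀ B : ℝ, ∃ δ > 0, ∀ᶠ n : ℕ in atTop,
      (∀ β : ℝ, 1 - δ ≤ β →
        B * β ^ 2 ≤ variance (fun g : Edge n → ℝ => F β g) (gauss (Edge n))) ∧
      B ≤ variance (fun g : Edge n → ℝ => M g) (gauss (Edge n)) :=
  diverges fun _ => pressureLimit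

end Vale.Agent.P146F
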